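import Vale.Agent.P194.Final
import Vale.Agent.P201.Torsion

namespace Vale.Agent.Results.P201.ZeroDivisors

open Vale.Agent.P194

/-- Kaplansky's zero-divisor conjecture fails over the field with two elements. -/
theorem result : ∃ (G : Type) (_ : Group G), (∀ g : G, IsOfFinOrder g → g = 1) ∧
    ∃ a b : MonoidAlgebra (ZMod 2) G, a ≠ 0 ∧ b ≠ 0 ∧ a * b = 0 := by
  obtain ⟨V, _, _, D, σ, ex, ν, h1, h2, h3⟩ := exists_all
  exact ⟨Gq D σ, inferInstance, Vale.Agent.P201.torsion_free h1 h3, zero_divisors h1 h2 h3⟩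

end Vale.Agent.Results.P201.ZeroDivisors
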